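import Vale.Agent.P369.ArbitraryInf

namespace Vale.Agent.Results.P369.ArbitraryStateThermalMixEPnI

open Vale.Agent.P369

/-- One-mode entropy photon-number inequality for every first input with finite mean photon number
(given by its spectral decomposition) and a finite mixture of thermal states as second input: in
every orthonormal basis the diagonal entropy of the output is at least `g (η N_A + (1-η) N_B)`. -/
theorem result (M : ℕ) (η : ℝ) (h0 : 0 ≤ η) (h1 : η ≤ 1) (μ z : Fin M → ℝ)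
    (hμ : ∀ t, 0 ≤ μ t) (hμ1 : ∑ t, μ t = 1) (hz : ∀ t, 0 ≤ z t ∧ z t < 1)
    (lam : ℕ → ℝ) (hl0 : ∀ j, 0 ≤ lam j) (hla : ∀ j, lam (j + 1) ≤ lam j) (hl1 : HasSum lam 1)
    (u : ℕ → lp (fun _ : ℕ => ℂ) 2) (hu : Orthonormal ℂ u)
    (hmean : Summable fun x : ℕ × ℕ => lam x.1 * ((x.2 : ℝ) * ‖u x.1 x.2‖ ^ 2))
    (e : HilbertBasis ℕ ℂ (lp (fun _ : ℕ => ℂ) 2)) :
    let q : ℕ → ℝ := fun l => ∑ t, μ t * ((1 - z t) * z t ^ l)
    HasSum (fun k => outFormInf η q lam (fun j => u j) (e k)) 1 ∧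
    ENNReal.ofReal (gFun (η * ginv (entInf lam) + (1 - η) * ginv (entInf q)))
      ≤ ∑' k, ENNReal.ofReal (Real.negMulLog (outFormInf η q lam (fun j => u j) (e k))) := by
  intro q
  have hz' : ∀ t ∈ (Finset.univ : Finset (Fin M)), 0 ≤ z t ∧ z t < 1 := fun t _ => hz t
  have hP : PassiveInf lam := passiveInf_spectrum hl0 hla hl1 hu hmean
  have hQ : PassiveInf q :=
    passiveInf_geo_mix (s := Finset.univ) hz' (fun t _ => hμ t) hμ1 fun l => rfl
  have hC := hasSum_outFormInf h0 h1 hP hQ hu e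
  have hC0 : ∀ k, 0 ≤ outFormInf η q lam (fun j => u j) (e k) := fun k =>
    outFormInf_nonneg hP hQ _ _
  have hn : ∀ k, 0 ≤ Real.negMulLog (outFormInf η q lam (fun j => u j) (e k)) := fun k =>
    Real.negMulLog_nonneg (hC0 k) (le_hasSum hC k fun j _ => hC0 j)
  refine ⟨hC, ?_⟩
  by_cases hfin : ∑' k, ENNReal.ofReal
      (Real.negMulLog (outFormInf η q lam (fun j => u j) (e k))) = ⊤
  · rw [hfin]; exact le_top
  have hs : Summable fun k => Real.negMulLog (outFormInf η q lam (fun j => u j) (e k)) :=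
    (ENNReal.summable_toReal hfin).congr fun k => ENNReal.toReal_ofReal (hn k)
  rw [← ENNReal.ofReal_tsum_of_nonneg hn hs]
  refine ENNReal.ofReal_le_ofReal ?_
  have h := epni_arbitrary_inf (s := Finset.univ) h0 h1 hz' (fun t _ => hμ t) hμ1 (q := q)
    (fun l => rfl) hl0 hla hl1 hu hmean e hs
  have ht0 : 0 ≤ η * ginv (entInf lam) + (1 - η) * ginv (entInf q) :=
    add_nonneg (mul_nonneg h0 (ginv_nonneg hP.entInf_nonneg))
      (mul_nonneg (sub_nonneg.2 h1) (ginv_nonneg hQ.entInf_nonneg))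
  calc gFun _ ≤ gFun (ginv (∑' k, Real.negMulLog (outFormInf η q lam (fun j => u j) (e k)))) :=
        strictMonoOn_gFun.monotoneOn ht0 (ginv_nonneg (tsum_nonneg hn)) h
    _ = _ := gFun_ginv (tsum_nonneg hn)

end Vale.Agent.Results.P369.ArbitraryStateThermalMixEPnI
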