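import Vale.Agent.P369.RieszApply
import Vale.Agent.P369.DiagLimit

namespace Vale.Agent.Results.P369.FockDiagonalEPnI

open Vale.Agent.P369

/-- Entropy photon-number inequality in every number of modes, for every two Fock-diagonal inputs
with finite mean photon number. -/
theorem result (n : ℕ) (η : ℝ) (h0 : 0 ≤ η) (h1 : η ≤ 1) (P Q : (Fin (n + 1) → ℕ) → ℝ)
    (hP0 : ∀ k, 0 ≤ P k) (hQ0 : ∀ k, 0 ≤ Q k)
    (hP1 : HasSum P 1) (hQ1 : HasSum Q 1)
    (hPm : Summable fun k => (∑ l, (k l : ℝ)) * P k)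
    (hQm : Summable fun k => (∑ l, (k l : ℝ)) * Q k) :
    (∀ k k', k ≠ k' → outN η P Q k k' = 0) ∧
    HasSum (fun k => outN η P Q k k) 1 ∧
    Summable (fun k => Real.negMulLog (outN η P Q k k)) ∧
    η * ginv (entN P / ((n : ℝ) + 1)) + (1 - η) * ginv (entN Q / ((n : ℝ) + 1))
      ≤ ginv (entN (fun k => outN η P Q k k) / ((n : ℝ) + 1)) := by
  have dP : DiagStateN P := ⟨hP0, hP1, hPm⟩
  have dQ : DiagStateN Q := ⟨hQ0, hQ1, hQm⟩
  refine ⟨fun k k' h => outN_offdiag η P Q h, ?_, ?_,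
    epn_diagN_outN_of h0 h1 (rieszHyp h0 h1) dP dQ⟩
  · simp only [outN_diag]; exact hasSum_pCNinf_diag dP dQ h0 h1
  · simp only [outN_diag]; exact summable_negMulLog_pCNinf_diag dP dQ h0 h1

end Vale.Agent.Results.P369.FockDiagonalEPnI
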