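import Vale.Agent.P369.TwoLevel

namespace Vale.Agent.Results.P369.PureStateTwoLevelMixEPnI

open Vale.Agent.P369

/-- One-mode entropy photon-number inequality for every pure first input and a convex combination
of thermal states with a passive two-level state as second input. -/
theorem result (M : ℕ) (η : ℝ) (h0 : 0 ≤ η) (h1 : η ≤ 1) (μ z : Fin M → ℝ) (w p : ℝ)
    (hμ : ∀ t, 0 ≤ μ t) (hz : ∀ t, 0 ≤ z t ∧ z t < 1) (hw : 0 ≤ w) (hsum : ∑ t, μ t + w = 1)
    (hp : 1 / 2 ≤ p) (hp1 : p ≤ 1) (u : lp (fun _ : ℕ => ℂ) 2) (hu : ‖u‖ = 1)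
    (e : HilbertBasis ℕ ℂ (lp (fun _ : ℕ => ℂ) 2)) :
    let q : ℕ → ℝ := fun l => ∑ t, μ t * ((1 - z t) * z t ^ l)
      + w * (if l = 0 then p else if l = 1 then 1 - p else 0)
    let lam : ℕ → ℝ := fun j => if j = 0 then 1 else 0
    HasSum (fun k => outFormInf η q lam (fun _ => u) (e k)) 1 ∧
    ENNReal.ofReal (gFun ((1 - η) * ginv (entInf q)))
      ≤ ∑' k, ENNReal.ofReal (Real.negMulLog (outFormInf η q lam (fun _ => u) (e k))) := by
  intro q lam
  exact pure_twoLevel_epni (s := Finset.univ) h0 h1 (fun t _ => hμ t) (fun t _ => hz t) hw hsum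
    hp hp1 (q := q) (fun l => rfl) u hu e

end Vale.Agent.Results.P369.PureStateTwoLevelMixEPnI
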